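import Vale.Agent.Results.P034.A_large_sets
import Vale.Agent.Results.P034.A_logstar_ell

namespace Vale.Agent.Results.P034.AAA_union

open Vale.Agent.Lib.P034

/-- Both partial results on Talagrand's question, in one statement, for a family `F` such that
every `H ∈ F` contains some `T ∈ F` with `|T| ≤ ℓ`.
(1) A fractional cover of cost at most `1/2` at `p` forces `F` to be `p / (40 (log* ℓ + 3))`-small,
hence `q_f(F) ≤ 40 (log* ℓ + 3) q(F)`.
(2) For `t ≥ 6` and `k` with `(⌈log₂⌉)^[k] ℓ ≤ 2^t`: if the cover is supported on sets of size at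
least `t`, then `F` is `p / (2 (k + 4))`-small; in general some family `G` has cost at most `1/2` at
`p / (4 (k + 4))` and each `H ∈ F` contains a member of `G` or has `g`-weight at least `1/2` on its
subsets of size less than `t`. -/
theorem result {α : Type*} [DecidableEq α] [Fintype α] (F : Finset (Finset α)) (ℓ : ℕ)
    (hℓ : ∀ H ∈ F, ∃ T ∈ F, T ⊆ H ∧ T.card ≤ ℓ) :
    ((∀ (p : ℝ) (g : Finset α → ℝ), 0 ≤ p → p ≤ 1 → IsFracCover F g → fracCost g p ≤ 1 / 2 →
      IsSmall F (p / (40 * ((logStar ℓ : ℝ) + 3)))) ∧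
      fracThreshold F ≤ 40 * ((logStar ℓ : ℝ) + 3) * intThreshold F) ∧
    ∀ (t k : ℕ), 6 ≤ t → (Nat.clog 2)^[k] ℓ ≤ 2 ^ t →
      ∀ (g : Finset α → ℝ) (p : ℝ), 0 ≤ p → IsFracCover F g → fracCost g p ≤ 1 / 2 →
        ((∀ S, g S ≠ 0 → t ≤ S.card) → IsSmall F (p / (2 * ((k : ℝ) + 4)))) ∧
        ∃ G : Finset (Finset α), ∑ S ∈ G, (p / (4 * ((k : ℝ) + 4))) ^ S.card ≤ 1 / 2 ∧
          ∀ H ∈ F, (∃ S ∈ G, S ⊆ H) ∨
            1 / 2 ≤ ∑ S ∈ H.powerset.filter (fun S => S.card < t), g S :=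
  ⟨A_logstar_ell.result F ℓ hℓ, fun t k ht hk g p hp hg hc =>
    A_large_sets.result F ℓ t k hℓ ht hk g p hp hg hc⟩

end Vale.Agent.Results.P034.AAA_union
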